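import Mathlib

/-!
# P058: transitive and subtransitive sets are spherical

A finite set `X` of Euclidean `n`-space is *transitive* if the isometries of the space mapping
`X` onto itself act transitively on `X`.  We prove that a transitive set lies on a sphere: every
isometry of the space is affine (Mazur-Ulam), so an isometry permuting `X` fixes the centroid of
`X`, and then all points of `X` are at the same distance from the centroid.
-/

namespace Vale.Agent.Results.P058.A_SubtransitiveSpherical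

open EuclideanGeometry
open scoped InnerProductSpace

/-- `X` is a transitive set of Euclidean `n`-space: for all `x, y ∈ X` some isometry `g` of the
space onto itself maps `X` onto `X` and `x` to `y`. -/
def IsTransitiveSet {n : ℕ} (X : Finset (EuclideanSpace ℝ (Fin n))) : Prop :=
  ∀ x ∈ X, ∀ y ∈ X, ∃ g : EuclideanSpace ℝ (Fin n) ≃ᵢ EuclideanSpace ℝ (Fin n),
    g '' (X : Set (EuclideanSpace ℝ (Fin n))) = X ∧ g x = y

theorem centroid_fixed {n : ℕ} (X : Finset (EuclideanSpace ℝ (Fin n))) (hX : X.Nonempty)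
    (g : EuclideanSpace ℝ (Fin n) ≃ᵢ EuclideanSpace ℝ (Fin n))
    (hg : g '' (X : Set (EuclideanSpace ℝ (Fin n))) = X) :
    g ((X.card : ℝ)⁻¹ • ∑ x ∈ X, x) = (X.card : ℝ)⁻¹ • ∑ x ∈ X, x := by
  classical
  set A : EuclideanSpace ℝ (Fin n) →ᵃ[ℝ] EuclideanSpace ℝ (Fin n) :=
    g.toRealAffineIsometryEquiv.toAffineEquiv.toAffineMap with hA
  have hAg : ∀ x, A x = g x := by
    intro x
    rw [hA]
    simp
  have hdec : ∀ x, g x = A.linear x + g 0 := by
    intro x
    have := congrFun (AffineMap.decomp A) x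
    simp only [Pi.add_apply] at this
    rw [← hAg x, this, hAg 0]
  have hm : (X.card : ℝ) ≠ 0 := by
    exact_mod_cast (Finset.card_pos.2 hX).ne'
  have himg : X.image g = X := by
    apply Finset.coe_injective
    rw [Finset.coe_image]
    exact hg
  have hsum : ∑ x ∈ X, g x = ∑ x ∈ X, x := by
    conv_rhs => rw [← himg]
    rw [Finset.sum_image]
    intro a _ b _ hab
    exact g.injective hab
  have hsum2 : ∑ x ∈ X, A.linear x = ∑ x ∈ X, x - (X.card : ℝ) • g 0 := by
    have : ∀ x ∈ X, A.linear x = g x - g 0 := by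
      intro x _
      rw [hdec x]
      abel
    rw [Finset.sum_congr rfl this, Finset.sum_sub_distrib, hsum, Finset.sum_const,
      ← Nat.cast_smul_eq_nsmul ℝ]
  rw [hdec, map_smul, map_sum, hsum2, smul_sub, smul_smul, inv_mul_cancel₀ hm, one_smul]
  abel

theorem cospherical_of_transitive {n : ℕ} (X : Finset (EuclideanSpace ℝ (Fin n)))
    (hX : IsTransitiveSet X) : Cospherical (X : Set (EuclideanSpace ℝ (Fin n))) := by
  rcases X.eq_empty_or_nonempty with rfl | hne
  · simp [Cospherical]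
  · obtain ⟨x0, hx0⟩ := hne
    refine ⟨(X.card : ℝ)⁻¹ • ∑ x ∈ X, x, dist x0 ((X.card : ℝ)⁻¹ • ∑ x ∈ X, x), ?_⟩
    intro p hp
    obtain ⟨g, hg, hgp⟩ := hX x0 hx0 p (Finset.mem_coe.1 hp)
    have hfix := centroid_fixed X ⟨x0, hx0⟩ g hg
    rw [← hgp]
    conv_lhs => rw [← hfix]
    exact g.dist_eq _ _

/-- A finite set that is carried into a cospherical set by a map preserving its pairwise
distances is cospherical. -/
theorem cospherical_of_congruent {d n : ℕ} (A : Finset (EuclideanSpace ℝ (Fin d)))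
    (φ : EuclideanSpace ℝ (Fin d) → EuclideanSpace ℝ (Fin n))
    (hφ : ∀ a ∈ A, ∀ b ∈ A, dist (φ a) (φ b) = dist a b)
    (h : Cospherical (φ '' (A : Set (EuclideanSpace ℝ (Fin d))))) :
    Cospherical (A : Set (EuclideanSpace ℝ (Fin d))) := by
  rcases A.eq_empty_or_nonempty with rfl | hne
  · simp [Cospherical]
  obtain ⟨a0, ha0⟩ := hne
  obtain ⟨z, ρ, hz⟩ := h
  have hz' : ∀ a ∈ A, dist (φ a) z = ρ := fun a ha => hz _ ⟨a, Finset.mem_coe.2 ha, rfl⟩
  set u : EuclideanSpace ℝ (Fin d) → EuclideanSpace ℝ (Fin d) := fun a => a - a0 with hu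
  set v : EuclideanSpace ℝ (Fin d) → EuclideanSpace ℝ (Fin n) := fun a => φ a - φ a0 with hv
  set w : EuclideanSpace ℝ (Fin n) := z - φ a0 with hw
  have hnorm : ∀ a ∈ A, ‖v a‖ = ‖u a‖ := by
    intro a ha
    have := hφ a ha a0 ha0
    rw [dist_eq_norm, dist_eq_norm] at this
    exact this
  have hnormsub : ∀ a ∈ A, ∀ b ∈ A, ‖v a - v b‖ = ‖u a - u b‖ := by
    intro a ha b hb
    have := hφ a ha b hb
    rw [dist_eq_norm, dist_eq_norm] at this
    simp only [hu, hv, sub_sub_sub_cancel_right]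
    exact this
  have hinner : ∀ a ∈ A, ∀ b ∈ A, ⟪v a, v b⟫_ℝ = ⟪u a, u b⟫_ℝ := by
    intro a ha b hb
    rw [real_inner_eq_norm_mul_self_add_norm_mul_self_sub_norm_sub_mul_self_div_two,
      real_inner_eq_norm_mul_self_add_norm_mul_self_sub_norm_sub_mul_self_div_two,
      hnorm a ha, hnorm b hb, hnormsub a ha b hb]
  have hwρ : ‖w‖ = ρ := by
    have := hz' a0 ha0
    rw [dist_comm, dist_eq_norm] at this
    exact this
  have hsph : ∀ a ∈ A, ‖v a‖ ^ 2 = 2 * ⟪v a, w⟫_ℝ := by
    intro a ha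
    have h1 : ‖v a - w‖ = ρ := by
      have := hz' a ha
      rw [dist_eq_norm] at this
      rw [← this]
      congr 1
      simp only [hv, hw]
      abel
    have h2 := norm_sub_sq_real (v a) w
    rw [h1, hwρ] at h2
    linarith
  set K : Submodule ℝ (EuclideanSpace ℝ (Fin n)) :=
    Submodule.span ℝ (Set.range (fun a : {a // a ∈ A} => v a)) with hK
  obtain ⟨w0, hw0, w1, hw1, hw01⟩ := K.exists_add_mem_mem_orthogonal w
  obtain ⟨c, hc⟩ := (Submodule.mem_span_range_iff_exists_fun ℝ).1 hw0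
  have hvK : ∀ a (ha : a ∈ A), v a ∈ K := fun a ha => Submodule.subset_span ⟨⟨a, ha⟩, rfl⟩
  have hvw : ∀ a ∈ A, ⟪v a, w⟫_ℝ = ⟪v a, w0⟫_ℝ := by
    intro a ha
    rw [hw01, inner_add_right, Submodule.inner_right_of_mem_orthogonal (hvK a ha) hw1, add_zero]
  set w' : EuclideanSpace ℝ (Fin d) := ∑ a : {a // a ∈ A}, c a • u a with hw'
  have key : ∀ b ∈ A, ⟪u b, w'⟫_ℝ = ⟪v b, w0⟫_ℝ := by
    intro b hb
    rw [hw', ← hc, inner_sum, inner_sum]
    refine Finset.sum_congr rfl fun a _ => ?_
    rw [inner_smul_right, inner_smul_right, hinner b hb a a.2]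
  refine ⟨a0 + w', ‖w'‖, ?_⟩
  intro b hb
  have hb' : b ∈ A := Finset.mem_coe.1 hb
  rw [dist_eq_norm]
  have h1 : b - (a0 + w') = u b - w' := by
    simp only [hu]
    abel
  rw [h1]
  have h2 := norm_sub_sq_real (u b) w'
  have h3 : ‖u b‖ ^ 2 = 2 * ⟪u b, w'⟫_ℝ := by
    rw [key b hb', ← hvw b hb', ← hsph b hb', hnorm b hb']
  have h4 : ‖u b - w'‖ ^ 2 = ‖w'‖ ^ 2 := by
    rw [h2]
    linarith
  exact (sq_eq_sq₀ (norm_nonneg _) (norm_nonneg _)).1 h4

/-- **Transitive and subtransitive sets are spherical.**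
(1) Every finite transitive set of Euclidean `n`-space lies on a sphere.
(2) Every finite set `A` of Euclidean `d`-space that is congruent to a subset of a finite
transitive set `X` of some Euclidean `n`-space (there is a map `φ` preserving the pairwise
distances of `A` and sending `A` into `X`) lies on a sphere of Euclidean `d`-space. -/
theorem result :
    (∀ (n : ℕ) (X : Finset (EuclideanSpace ℝ (Fin n))), IsTransitiveSet X →
      Cospherical (X : Set (EuclideanSpace ℝ (Fin n)))) ∧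
    (∀ (d n : ℕ) (A : Finset (EuclideanSpace ℝ (Fin d))) (X : Finset (EuclideanSpace ℝ (Fin n)))
      (φ : EuclideanSpace ℝ (Fin d) → EuclideanSpace ℝ (Fin n)),
      IsTransitiveSet X → (∀ a ∈ A, φ a ∈ X) →
      (∀ a ∈ A, ∀ b ∈ A, dist (φ a) (φ b) = dist a b) →
      Cospherical (A : Set (EuclideanSpace ℝ (Fin d)))) := by
  refine ⟨fun n X hX => cospherical_of_transitive X hX, ?_⟩
  intro d n A X φ hX hA hφ
  apply cospherical_of_congruent A φ hφ
  refine Cospherical.subset ?_ (cospherical_of_transitive X hX)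
  rintro _ ⟨a, ha, rfl⟩
  exact Finset.mem_coe.2 (hA a (Finset.mem_coe.1 ha))

end Vale.Agent.Results.P058.A_SubtransitiveSpherical
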