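import Mathlib

/-!
# P058 (finite Euclidean Ramsey sets): sets containing a three-term arithmetic progression

A finite set `X ⊆ ℝⁿ` is *transitive* if the isometries of `ℝⁿ` mapping `X` onto itself act
transitively on `X`; a finite set `A ⊆ ℝᵈ` is *subtransitive* if it is congruent to a subset of a
finite transitive set (in some `ℝⁿ`).  It is *spherical* if it lies on a sphere.

We prove that every finite subtransitive set `A ⊆ ℝᵈ` is spherical, with the centre of the sphere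
in `ℝᵈ` itself; and that a finite set containing a three-term arithmetic progression (three
collinear points, one the midpoint of the other two) is neither Ramsey nor subtransitive, so the
Leader–Russell–Walters equivalence Ramsey ⟺ subtransitive holds for all such sets.  (By the
theorem of Erdős–Graham–Montgomery–Rothschild–Spencer–Straus, not formalised here, every Ramsey
set is spherical, so the first statement gives the equivalence for all non-spherical sets.)
-/

namespace Vale.Agent.Results.P058.B_ProgressionSets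

open scoped RealInnerProductSpace

/-- A set `X ⊆ ℝⁿ` is *transitive*: it is finite and the isometries of `ℝⁿ` mapping `X` onto
itself act transitively on `X`. -/
def IsTransitive {n : ℕ} (X : Set (EuclideanSpace ℝ (Fin n))) : Prop :=
  X.Finite ∧ ∀ x ∈ X, ∀ y ∈ X,
    ∃ f : EuclideanSpace ℝ (Fin n) ≃ᵢ EuclideanSpace ℝ (Fin n), f '' X = X ∧ f x = y

/-- A set `A ⊆ ℝᵈ` is *subtransitive*: it is congruent to a subset of a finite transitive set,
i.e. some map `g` preserving all pairwise distances of `A` sends `A` into a transitive set `X` of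
some Euclidean space `ℝⁿ`. -/
def IsSubtransitive {d : ℕ} (A : Set (EuclideanSpace ℝ (Fin d))) : Prop :=
  ∃ (n : ℕ) (X : Set (EuclideanSpace ℝ (Fin n)))
    (g : EuclideanSpace ℝ (Fin d) → EuclideanSpace ℝ (Fin n)),
    IsTransitive X ∧ (∀ x ∈ A, ∀ y ∈ A, dist (g x) (g y) = dist x y) ∧ g '' A ⊆ X

/-- A set `A ⊆ ℝᵈ` is *spherical*: it lies on a sphere `{x : ‖x - z‖ = ρ}` of `ℝᵈ`. -/
def IsSpherical {d : ℕ} (A : Set (EuclideanSpace ℝ (Fin d))) : Prop :=
  ∃ (z : EuclideanSpace ℝ (Fin d)) (ρ : ℝ), ∀ x ∈ A, dist x z = ρ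

/-- A transitive set lies on a sphere centred at its centroid. -/
theorem transitive_equidistant {n : ℕ} (X : Set (EuclideanSpace ℝ (Fin n)))
    (hX : IsTransitive X) :
    ∃ (c : EuclideanSpace ℝ (Fin n)) (ρ : ℝ), ∀ x ∈ X, dist x c = ρ := by
  obtain ⟨hfin, htrans⟩ := hX
  rcases X.eq_empty_or_nonempty with rfl | ⟨x₁, hx₁⟩
  · exact ⟨0, 0, fun x hx => absurd hx (Set.notMem_empty x)⟩
  set Xf : Finset (EuclideanSpace ℝ (Fin n)) := hfin.toFinset with hXf
  have hmem : ∀ x, x ∈ Xf ↔ x ∈ X := fun x => hfin.mem_toFinset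
  have hN : (Xf.card : ℝ) ≠ 0 := by
    have : Xf.Nonempty := ⟨x₁, (hmem x₁).mpr hx₁⟩
    exact_mod_cast this.card_pos.ne'
  set c : EuclideanSpace ℝ (Fin n) := (Xf.card : ℝ)⁻¹ • ∑ x ∈ Xf, x with hc
  have hfix : ∀ f : EuclideanSpace ℝ (Fin n) ≃ᵢ EuclideanSpace ℝ (Fin n), f '' X = X →
      f c = c := by
    intro f hf
    set φ := f.toRealAffineIsometryEquiv with hφ
    have hφf : ∀ y, φ y = f y := fun y => rfl
    have hdecomp : ∀ y, f y = φ.linearIsometryEquiv y + f 0 := by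
      intro y
      have := φ.map_vadd (0 : EuclideanSpace ℝ (Fin n)) y
      simp only [vadd_eq_add, add_zero] at this
      rw [← hφf y, this, hφf]
    have hsum : ∑ x ∈ Xf, f x = ∑ x ∈ Xf, x := by
      have himg : Xf.image f = Xf := by
        ext y
        rw [Finset.mem_image, hmem]
        constructor
        · rintro ⟨x, hx, rfl⟩
          rw [← hf]
          exact ⟨x, (hmem x).mp hx, rfl⟩
        · intro hy
          rw [← hf] at hy
          obtain ⟨x, hx, rfl⟩ := hy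
          exact ⟨x, (hmem x).mpr hx, rfl⟩
      conv_rhs => rw [← himg]
      rw [Finset.sum_image (fun a _ b _ h => f.injective h)]
    rw [hdecomp c, hc, map_smul, map_sum]
    have h2 : ∑ x ∈ Xf, φ.linearIsometryEquiv x = ∑ x ∈ Xf, x - Xf.card • f 0 := by
      rw [← hsum]
      have h3 : ∑ x ∈ Xf, f x = ∑ x ∈ Xf, (φ.linearIsometryEquiv x + f 0) :=
        Finset.sum_congr rfl fun x _ => hdecomp x
      rw [h3, Finset.sum_add_distrib, Finset.sum_const]
      abel
    rw [h2, smul_sub, ← Nat.cast_smul_eq_nsmul ℝ, smul_smul, inv_mul_cancel₀ hN, one_smul]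
    abel
  refine ⟨c, dist x₁ c, fun x hx => ?_⟩
  obtain ⟨f, hf, hfx⟩ := htrans x₁ hx₁ x hx
  rw [← hfx]
  conv_lhs => rw [← hfix f hf]
  exact f.isometry.dist_eq x₁ c

/-- Every finite subtransitive set is spherical.  If a finite set `A ⊆ ℝᵈ` is congruent to a
subset of a finite transitive set of some `ℝⁿ`, then `A` lies on a sphere of `ℝᵈ`. -/
theorem subtransitive_spherical (d : ℕ) (A : Set (EuclideanSpace ℝ (Fin d))) (hA : A.Finite)
    (hsub : IsSubtransitive A) : IsSpherical A := by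
  obtain ⟨n, X, g, hX, hg, hgX⟩ := hsub
  obtain ⟨c, ρ, hρ⟩ := transitive_equidistant X hX
  rcases A.eq_empty_or_nonempty with rfl | ⟨a₀, ha₀⟩
  · exact ⟨0, 0, fun x hx => absurd hx (Set.notMem_empty x)⟩
  set Af : Finset (EuclideanSpace ℝ (Fin d)) := hA.toFinset with hAf
  have hmem : ∀ x, x ∈ Af ↔ x ∈ A := fun x => hA.mem_toFinset
  -- the points of `A`, indexed by the finite type `↥Af`, and their images
  set p₀ : ↥Af → EuclideanSpace ℝ (Fin d) := fun i => (i : EuclideanSpace ℝ (Fin d)) with hp₀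
  set p : ↥Af → EuclideanSpace ℝ (Fin n) := fun i => g (i : EuclideanSpace ℝ (Fin d)) with hp
  have hpdist : ∀ i j : ↥Af, dist (p i) (p j) = dist (p₀ i) (p₀ j) := fun i j =>
    hg i ((hmem i).mp i.2) j ((hmem j).mp j.2)
  set s : AffineSubspace ℝ (EuclideanSpace ℝ (Fin n)) := affineSpan ℝ (Set.range p) with hs
  have hps : ∀ i : ↥Af, p i ∈ s := fun i => subset_affineSpan ℝ _ (Set.mem_range_self i)
  let i₀ : ↥Af := ⟨a₀, (hmem a₀).mpr ha₀⟩
  have : Nonempty s := ⟨⟨p i₀, hps i₀⟩⟩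
  set c' : EuclideanSpace ℝ (Fin n) :=
    ((EuclideanGeometry.orthogonalProjection s c : s) : EuclideanSpace ℝ (Fin n)) with hc'
  have hc's : c' ∈ s := EuclideanGeometry.orthogonalProjection_mem c
  obtain ⟨w, hw, hcw⟩ := eq_affineCombination_of_mem_affineSpan_of_fintype hc's
  -- the candidate centre
  set z : EuclideanSpace ℝ (Fin d) := Finset.univ.affineCombination ℝ p₀ w with hz
  refine ⟨z, Real.sqrt (ρ * ρ - dist c c' * dist c c'), fun x hx => ?_⟩
  let j : ↥Af := ⟨x, (hmem x).mpr hx⟩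
  set wj : ↥Af → ℝ := fun i => if i = j then 1 else 0 with hwj
  have hwj1 : ∑ i, wj i = 1 := by simp [hwj]
  have hxj : Finset.univ.affineCombination ℝ p₀ wj = x :=
    Finset.univ.affineCombination_of_eq_one_of_eq_zero wj p₀ (Finset.mem_univ j)
      (by simp [hwj]) (fun i _ hne => by simp [hwj, hne])
  have hgxj : Finset.univ.affineCombination ℝ p wj = g x :=
    Finset.univ.affineCombination_of_eq_one_of_eq_zero wj p (Finset.mem_univ j)
      (by simp [hwj]) (fun i _ hne => by simp [hwj, hne])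
  have h1 := EuclideanGeometry.dist_affineCombination p₀ hwj1 hw
  have h2 := EuclideanGeometry.dist_affineCombination p hwj1 hw
  simp only [hpdist] at h2
  rw [hxj] at h1
  rw [hgxj, ← hcw] at h2
  have h3 : dist x z * dist x z = dist (g x) c' * dist (g x) c' := by
    rw [h1, h2]
  have h4 := EuclideanGeometry.dist_sq_eq_dist_orthogonalProjection_sq_add_dist_orthogonalProjection_sq
    (s := s) c (hps j)
  have h5 : dist (g x) c = ρ := hρ (g x) (hgX ⟨x, hx, rfl⟩)
  have h6 : dist x z * dist x z = ρ * ρ - dist c c' * dist c c' := by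
    rw [h3]
    have : dist (p j) c * dist (p j) c = dist (p j) c' * dist (p j) c' + dist c c' * dist c c' := h4
    have hpj : p j = g x := rfl
    rw [hpj, h5] at this
    linarith
  rw [← h6, Real.sqrt_mul_self dist_nonneg]

/-- A set `A ⊆ ℝᵈ` is *Ramsey*: for every integer `r ≥ 2` there is an integer `D ≥ 1` such that
every colouring `c : ℝ^D → {1, …, r}` is constant on some set congruent to `A`, i.e. on the image
of `A` under a map `g` preserving all pairwise distances of `A`. -/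
def IsRamsey {d : ℕ} (A : Set (EuclideanSpace ℝ (Fin d))) : Prop :=
  ∀ r : ℕ, 2 ≤ r → ∃ D : ℕ, 1 ≤ D ∧ ∀ c : EuclideanSpace ℝ (Fin D) → Fin r,
    ∃ g : EuclideanSpace ℝ (Fin d) → EuclideanSpace ℝ (Fin D),
      (∀ x ∈ A, ∀ y ∈ A, dist (g x) (g y) = dist x y) ∧ ∃ k : Fin r, ∀ x ∈ A, c (g x) = k

/-- the 4-colouring of `ℝ^D` by `⌊‖x‖² / s²⌋ mod 4` -/
noncomputable def col (D : ℕ) (s : ℝ) (x : EuclideanSpace ℝ (Fin D)) : Fin 4 :=
  ⟨(⌊‖x‖ ^ 2 / s ^ 2⌋ % 4).toNat, by
    have h1 : 0 ≤ ⌊‖x‖ ^ 2 / s ^ 2⌋ % 4 := Int.emod_nonneg _ (by norm_num)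
    have h2 : ⌊‖x‖ ^ 2 / s ^ 2⌋ % 4 < 4 := Int.emod_lt_of_pos _ (by norm_num)
    omega⟩

theorem col_eq {D : ℕ} {s : ℝ} {x y : EuclideanSpace ℝ (Fin D)} (h : col D s x = col D s y) :
    ⌊‖x‖ ^ 2 / s ^ 2⌋ % 4 = ⌊‖y‖ ^ 2 / s ^ 2⌋ % 4 := by
  have h' := congrArg Fin.val h
  simp only [col] at h'
  have h1 : 0 ≤ ⌊‖x‖ ^ 2 / s ^ 2⌋ % 4 := Int.emod_nonneg _ (by norm_num)
  have h2 : 0 ≤ ⌊‖y‖ ^ 2 / s ^ 2⌋ % 4 := Int.emod_nonneg _ (by norm_num)
  omega

/-- No congruent copy of a three-term progression with step `s` is monochromatic. -/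
theorem no_mono {D : ℕ} {s : ℝ} (hs : 0 < s) (p₀ p₁ p₂ : EuclideanSpace ℝ (Fin D))
    (h01 : dist p₀ p₁ = s) (h12 : dist p₁ p₂ = s) (h02 : dist p₀ p₂ = 2 * s)
    (hc01 : col D s p₀ = col D s p₁) (hc12 : col D s p₁ = col D s p₂) : False := by
  -- p₂ - p₁ = p₁ - p₀
  set u := p₀ - p₁ with hu
  set v := p₂ - p₁ with hv
  have hun : ‖u‖ = s := by rw [hu, ← dist_eq_norm]; exact h01
  have hvn : ‖v‖ = s := by rw [hv, ← dist_eq_norm, dist_comm]; exact h12
  have huv : ‖u - v‖ = 2 * s := by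
    have : u - v = p₀ - p₂ := by rw [hu, hv]; abel
    rw [this, ← dist_eq_norm]; exact h02
  have hpar := parallelogram_law_with_norm ℝ u v
  have hsum : ‖u + v‖ = 0 := by
    have : ‖u + v‖ * ‖u + v‖ = 0 := by
      rw [hun, hvn, huv] at hpar; nlinarith
    exact mul_self_eq_zero.mp this
  have huv0 : v = -u := by
    have := norm_eq_zero.mp hsum
    exact eq_neg_of_add_eq_zero_right this
  have hp0 : p₀ = p₁ + u := by rw [hu]; abel
  have hp2 : p₂ = p₁ - u := by
    have : p₂ = p₁ + v := by rw [hv]; abel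
    rw [this, huv0]; abel
  have hpar2 := parallelogram_law_with_norm ℝ p₁ u
  have hkey : ‖p₀‖ ^ 2 + ‖p₂‖ ^ 2 = 2 * ‖p₁‖ ^ 2 + 2 * s ^ 2 := by
    rw [hp0, hp2]
    rw [hun] at hpar2
    nlinarith
  have hs2 : 0 < s ^ 2 := by positivity
  have hy : ‖p₀‖ ^ 2 / s ^ 2 - 2 * (‖p₁‖ ^ 2 / s ^ 2) + ‖p₂‖ ^ 2 / s ^ 2 = 2 := by
    field_simp
    linarith
  set y₀ := ‖p₀‖ ^ 2 / s ^ 2
  set y₁ := ‖p₁‖ ^ 2 / s ^ 2
  set y₂ := ‖p₂‖ ^ 2 / s ^ 2
  have e01 : ⌊y₀⌋ % 4 = ⌊y₁⌋ % 4 := col_eq hc01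
  have e12 : ⌊y₁⌋ % 4 = ⌊y₂⌋ % 4 := col_eq hc12
  have a0 := Int.floor_le y₀
  have b0 := Int.lt_floor_add_one y₀
  have a1 := Int.floor_le y₁
  have b1 := Int.lt_floor_add_one y₁
  have a2 := Int.floor_le y₂
  have b2 := Int.lt_floor_add_one y₂
  have hlo : (0 : ℝ) < ((⌊y₀⌋ - 2 * ⌊y₁⌋ + ⌊y₂⌋ : ℤ) : ℝ) := by
    push_cast; linarith
  have hhi : ((⌊y₀⌋ - 2 * ⌊y₁⌋ + ⌊y₂⌋ : ℤ) : ℝ) < 4 := by
    push_cast; linarith
  have hlo' : (0 : ℤ) < ⌊y₀⌋ - 2 * ⌊y₁⌋ + ⌊y₂⌋ := by exact_mod_cast hlo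
  have hhi' : ⌊y₀⌋ - 2 * ⌊y₁⌋ + ⌊y₂⌋ < 4 := by exact_mod_cast hhi
  omega

/-- A set containing a three-term arithmetic progression `a, b, c` (`b` the midpoint of `a ≠ c`)
is not spherical. -/
theorem not_spherical_of_progression {d : ℕ} (A : Set (EuclideanSpace ℝ (Fin d)))
    (a b c : EuclideanSpace ℝ (Fin d)) (ha : a ∈ A) (hb : b ∈ A) (hc : c ∈ A) (hac : a ≠ c)
    (hmid : b - a = c - b) : ¬ IsSpherical A := by
  rintro ⟨z, ρ, hρ⟩
  have h1 := hρ a ha
  have h2 := hρ b hb
  have h3 := hρ c hc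
  rw [dist_eq_norm] at h1 h2 h3
  have hpar := parallelogram_law_with_norm ℝ (b - z) (b - a)
  have e1 : b - z + (b - a) = c - z := by rw [hmid]; abel
  have e2 : b - z - (b - a) = a - z := by abel
  rw [e1, e2, h1, h2, h3] at hpar
  have hw : ‖b - a‖ = 0 := by
    have : ‖b - a‖ * ‖b - a‖ = 0 := by nlinarith
    exact mul_self_eq_zero.mp this
  have hba : b = a := sub_eq_zero.mp (norm_eq_zero.mp hw)
  apply hac
  have : c - b = 0 := by rw [← hmid, hba, sub_self]
  rw [← hba]; exact (sub_eq_zero.mp this).symm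

/-- A set containing a three-term arithmetic progression is not Ramsey: the colouring of `ℝ^D`
by `⌊‖x‖² / s²⌋ mod 4` (`s` the step) has no monochromatic congruent copy, for every `D`. -/
theorem not_ramsey_of_progression {d : ℕ} (A : Set (EuclideanSpace ℝ (Fin d)))
    (a b c : EuclideanSpace ℝ (Fin d)) (ha : a ∈ A) (hb : b ∈ A) (hc : c ∈ A) (hac : a ≠ c)
    (hmid : b - a = c - b) : ¬ IsRamsey A := by
  intro hR
  obtain ⟨D, -, hD⟩ := hR 4 (by norm_num)
  have hba : b ≠ a := by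
    intro h
    apply hac
    have : c - b = 0 := by rw [← hmid, h, sub_self]
    rw [← h]; exact (sub_eq_zero.mp this).symm
  set s : ℝ := dist a b with hs
  have hspos : 0 < s := dist_pos.mpr (Ne.symm hba)
  obtain ⟨g, hg, k, hk⟩ := hD (col D s)
  have h01 : dist (g a) (g b) = s := hg a ha b hb
  have h12 : dist (g b) (g c) = s := by
    rw [hg b hb c hc, hs, dist_eq_norm, dist_eq_norm, ← norm_neg (a - b), neg_sub, hmid,
      ← norm_neg (c - b), neg_sub]
  have h02 : dist (g a) (g c) = 2 * s := by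
    rw [hg a ha c hc, hs, dist_eq_norm, dist_eq_norm]
    have : a - c = (2 : ℝ) • (a - b) := by
      have h' : c = b + (b - a) := by rw [hmid]; abel
      rw [h', two_smul]; abel
    rw [this, norm_smul]; norm_num
  exact no_mono hspos (g a) (g b) (g c) h01 h12 h02
    ((hk a ha).trans (hk b hb).symm) ((hk b hb).trans (hk c hc).symm)

/-- **The non-spherical side of the Leader–Russell–Walters conjecture.**  Let `A ⊆ ℝᵈ` be finite.

1. If `A` is subtransitive, then `A` is spherical (lies on a sphere of `ℝᵈ`).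
2. If `A` contains a three-term arithmetic progression `a, b, c` (`b` the midpoint of `a ≠ c`),
   then `A` is not Ramsey, not subtransitive and not spherical.  So for such sets the conjectured
   equivalence Ramsey ⟺ subtransitive holds (both properties fail). -/
theorem result (d : ℕ) (A : Set (EuclideanSpace ℝ (Fin d))) (hA : A.Finite) :
    (IsSubtransitive A → IsSpherical A) ∧
      (∀ a b c : EuclideanSpace ℝ (Fin d), a ∈ A → b ∈ A → c ∈ A → a ≠ c → b - a = c - b →
        ¬ IsRamsey A ∧ ¬ IsSubtransitive A ∧ ¬ IsSpherical A) := by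
  refine ⟨subtransitive_spherical d A hA, fun a b c ha hb hc hac hmid => ?_⟩
  have hns := not_spherical_of_progression A a b c ha hb hc hac hmid
  exact ⟨not_ramsey_of_progression A a b c ha hb hc hac hmid,
    fun hsub => hns (subtransitive_spherical d A hA hsub), hns⟩

end Vale.Agent.Results.P058.B_ProgressionSets
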